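import Vale.Agent.P176.Final

/-!
P176: disproof of the little finitistic dimension conjecture.
-/

namespace Vale.Agent.Results.P176.FindimInfinite

open CategoryTheory

universe u

theorem result : ∀ (k : Type u) [Field k], (2 : k) ≠ 0 →
    ∃ (A : Type u) (_ : Ring A) (_ : Algebra k A), Module.Finite k A ∧
      ∀ N : ℕ, ∃ M : ModuleCat.{u} A, Module.Finite A M ∧
        (∃ d : ℕ, HasProjectiveDimensionLT M d) ∧ ¬ HasProjectiveDimensionLT M N :=
  fun _ _ h2 => Vale.Agent.P176.unboundedFindim h2

end Vale.Agent.Results.P176.FindimInfinite
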